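import Vale.Agent.P325.H811.K2.Red0

/-!
# The number of violated tests
-/

namespace Vale.Agent.P325.H811

open Finset Vale.Agent.Lib.PCP Vale.Agent.P342 Vale.Agent.P325.K2

open Classical in
theorem Pr_mul_card {α : Type} [Fintype α] [Nonempty α] (p : α → Prop) :
    Pr p * Fintype.card α = ∑ x, if p x then (1 : ℝ) else 0 := by
  have h : (Fintype.card α : ℝ) ≠ 0 := by exact_mod_cast Fintype.card_ne_zero
  rw [Pr, Ex, div_mul_cancel₀ _ h]

theorem sg_ne (b b' : Bool) : sg b ≠ sg b' ↔ b ≠ b' := by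
  have h1 : (1 : ℝ) ≠ -1 := by norm_num
  cases b <;> cases b' <;> simp [sg, h1, h1.symm]

variable {n N r L W P : ℕ} [NeZero n] [NeZero L] [NeZero r]

theorem viol_inl (A : Asg n N r) (e : Win n N → Ed r) (c : Win n N) (a : Fin n → Fin L)
    (y : Sd n N r L) (ν : Lab n N r) :
    Viol A (((c, a, y), Sum.inl ν) : Test n N r L W P) e ↔
      near a y (adr (prj e) c ν) ∧ pivt (A c (qst c e)) (adr (prj e) c) a y ν := by
  unfold Viol pivt tab2 tab1 win2
  dsimp only
  by_cases h : near a y (adr (prj e) c ν)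
  · rw [if_pos h]
    exact ⟨fun h' => ⟨h, fun h2 => h' h2.symm⟩, fun h' h2 => h'.2 h2.symm⟩
  · rw [if_neg h]
    exact ⟨fun h' => absurd rfl h', fun h' => absurd h'.1 h⟩

theorem viol_mid (A : Asg n N r) (e : Win n N → Ed r) (c : Win n N) (a : Fin n → Fin L)
    (y : Sd n N r L) (k : Fin n) (j : Fin N) (w : Fin W) :
    Viol A (((c, a, y), Sum.inr (Sum.inl (k, j, w))) : Test n N r L W P) e ↔
      (a k = 0 ∧ a ≠ 0) ∧ Fz A e c a y ≠ Fz A e (Function.update c k j) a y := by
  unfold Viol tab2 tab1 win2 Fz FF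
  dsimp only
  by_cases h : a k = 0 ∧ a ≠ 0
  · rw [if_pos h, sg_ne]
    exact ⟨fun h' => ⟨h, h'⟩, fun h' => h'.2⟩
  · rw [if_neg h]
    exact ⟨fun h' => absurd rfl h', fun h' => absurd h'.1 h⟩

theorem viol_inr (A : Asg n N r) (e : Win n N → Ed r) (c : Win n N) (a : Fin n → Fin L)
    (y : Sd n N r L) (i : Fin P) :
    ¬ Viol A (((c, a, y), Sum.inr (Sum.inr i)) : Test n N r L W P) e := by
  unfold Viol tab2 tab1 win2
  exact fun h => h rfl

open Classical in
/-- The tests with a given window, weight and tuple of constraints. -/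
theorem count_z (A : Asg n N r) (e : Win n N → Ed r) (c : Win n N) (a : Fin n → Fin L) :
    (∑ y : Sd n N r L, ∑ t : Lab n N r ⊕ (Fin n × Fin N × Fin W) ⊕ Fin P,
      if Viol A ((c, a, y), t) e then (1 : ℝ) else 0) =
      (c1 A e c a + W * ∑ k, ∑ j, c3 A e c a k j) * Fintype.card (Sd n N r L) := by
  have h1 : ∀ y : Sd n N r L, (∑ t : Lab n N r ⊕ (Fin n × Fin N × Fin W) ⊕ Fin P,
      if Viol A ((c, a, y), t) e then (1 : ℝ) else 0) =
      (∑ ν : Lab n N r, if near a y (adr (prj e) c ν) ∧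
        pivt (A c (qst c e)) (adr (prj e) c) a y ν then (1 : ℝ) else 0) +
      W * ∑ k, ∑ j, if (a k = 0 ∧ a ≠ 0) ∧ Fz A e c a y ≠ Fz A e (Function.update c k j) a y
        then (1 : ℝ) else 0 := by
    intro y
    rw [Fintype.sum_sum_type, Fintype.sum_sum_type]
    have h2 : (∑ i : Fin P, if Viol A (((c, a, y), Sum.inr (Sum.inr i)) : Test n N r L W P) e
        then (1 : ℝ) else 0) = 0 :=
      Finset.sum_eq_zero fun i _ => if_neg (viol_inr A e c a y i)
    rw [h2, add_zero]
    congr 1
    · exact Finset.sum_congr rfl fun ν _ => if_congr (viol_inl A e c a y ν) rfl rfl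
    · rw [Fintype.sum_prod_type, Finset.mul_sum]
      refine Finset.sum_congr rfl fun k _ => ?_
      rw [Fintype.sum_prod_type, Finset.mul_sum]
      refine Finset.sum_congr rfl fun j _ => ?_
      rw [Finset.sum_congr rfl fun w _ => if_congr (viol_mid A e c a y k j w) rfl rfl]
      rw [Finset.sum_const, Finset.card_univ, Fintype.card_fin, nsmul_eq_mul]
  rw [Finset.sum_congr rfl fun y _ => h1 y, Finset.sum_add_distrib, add_mul]
  congr 1
  · rw [Finset.sum_comm, c1, cost1, Finset.sum_mul]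
    refine Finset.sum_congr rfl fun ν _ => ?_
    rw [Pr_mul_card]
    refine Finset.sum_congr rfl fun y _ => ?_
    by_cases h : near a y (adr (prj e) c ν) ∧ pivt (A c (qst c e)) (adr (prj e) c) a y ν
    · rw [if_pos h, if_pos h]
    · rw [if_neg h, if_neg h]
  · rw [← Finset.mul_sum, Finset.sum_comm, mul_assoc, Finset.sum_mul]
    congr 1
    refine Finset.sum_congr rfl fun k _ => ?_
    rw [Finset.sum_comm, Finset.sum_mul]
    refine Finset.sum_congr rfl fun j _ => ?_
    unfold c3
    by_cases h : a k = 0 ∧ a ≠ 0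
    · rw [if_pos h, Pr_mul_card]
      refine Finset.sum_congr rfl fun y _ => ?_
      by_cases h' : Fz A e c a y ≠ Fz A e (Function.update c k j) a y
      · rw [if_pos ⟨h, h'⟩, if_pos h']
      · rw [if_neg fun h2 => h' h2.2, if_neg h']
    · rw [if_neg h, zero_mul]
      exact Finset.sum_eq_zero fun y _ => if_neg fun h' => h h'.1

/-- The counting statement. -/
theorem countThm : CountThm := by
  intro n N r L W P _ _ _ _ G hG A
  have hm : 0 < G.length := List.length_pos_iff.2 hG
  have : Nonempty (Fin G.length) := ⟨⟨0, hm⟩⟩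
  have h1 : (Fintype.card ((Win n N → Fin G.length) × Win n N × (Fin n → Fin L)) : ℝ) ≠ 0 := by
    exact_mod_cast Fintype.card_ne_zero
  have h2 : (ZZ n N r L G.length : ℝ) =
      Fintype.card ((Win n N → Fin G.length) × Win n N × (Fin n → Fin L)) *
        Fintype.card (Sd n N r L) := by
    rw [ZZ, Fintype.card_prod, Fintype.card_prod]
    push_cast
    ring
  rw [h2, cost, Ex, ← mul_assoc, div_mul_cancel₀ _ h1, Finset.sum_mul, Fintype.sum_prod_type]
  refine Finset.sum_congr rfl fun p _ => ?_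
  rw [Fintype.sum_prod_type, Fintype.sum_prod_type, Fintype.sum_prod_type]
  refine Finset.sum_congr rfl fun c _ => ?_
  rw [Fintype.sum_prod_type]
  refine Finset.sum_congr rfl fun a _ => ?_
  exact count_z A (eo G p) c a

end Vale.Agent.P325.H811
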