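import Vale.Agent.P325.H811.K2.PTc
import Vale.Agent.P325.H811.K2.Count
import Vale.Agent.P325.H811.K2.SrcU

/-!
# The reduction
-/

namespace Vale.Agent.P325.H811

open Finset Vale.Agent.Lib.PCP Vale.Agent.Lib.PolyTime Vale.Agent.P342 Vale.Agent.P325.K2
open Vale.Agent.P333.NP

/-- Package R, given the counting statement. -/
theorem redThm_of (hC : CountThm) : RedThm := by
  intro hS hCo hN C
  set C1 : ℝ := max C 1 with hC1
  have hC1' : 1 ≤ C1 := le_max_right _ _
  have hC10 : 0 < C1 := by linarith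
  obtain ⟨n, N, hn, hN', η, hη, h⟩ := hS (C1 + 1)
  obtain ⟨r, hr, hnp⟩ := np_lc_unif hη
  obtain ⟨L, W, hL, hs⟩ := h r
  have hν0 : 0 < nu n L := hN n L (Nat.pos_of_ne_zero hL.out)
  set ν := nu n L with hν
  refine ⟨min (ν / C1) (ν / (MM n N r W 0 + 1)), lt_min (by positivity) (by positivity),
    fun ε hε hε' => ?_⟩
  have h1 : ε ≤ ν / C1 := hε'.trans (min_le_left _ _)
  have h2 : ε ≤ ν / (MM n N r W 0 + 1) := hε'.trans (min_le_right _ _)
  rw [le_div_iff₀ hC10] at h1
  rw [le_div_iff₀ (by positivity)] at h2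
  have hM1 : ν / ε ≤ ⌈ν / ε⌉₊ := Nat.le_ceil _
  have hM2 : (⌈ν / ε⌉₊ : ℝ) < ν / ε + 1 := Nat.ceil_lt_add_one (by positivity)
  have hM0 : MM n N r W 0 ≤ ⌈ν / ε⌉₊ := by
    have h3 : (MM n N r W 0 : ℝ) ≤ ν / ε := by
      rw [le_div_iff₀ hε]
      nlinarith
    exact_mod_cast h3.trans hM1
  obtain ⟨P, hP⟩ : ∃ P, MM n N r W P = ⌈ν / ε⌉₊ := by
    refine ⟨⌈ν / ε⌉₊ - MM n N r W 0, ?_⟩
    have h3 : ∀ P, MM n N r W P = MM n N r W 0 + P := by
      intro P
      unfold MM
      omega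
    rw [h3]
    omega
  have hMp : (0 : ℝ) < MM n N r W P := by exact_mod_cast MM_pos
  rw [← hP] at hM1 hM2
  rw [div_le_iff₀ hε] at hM1
  have hM3 : (MM n N r W P : ℝ) * ε ≤ ν + ε := by
    have h3 := mul_le_mul_of_nonneg_right hM2.le hε.le
    have h4 : (ν / ε + 1) * ε = ν + ε := by field_simp
    linarith
  intro Lg hLg
  obtain ⟨Φ, g, hg, hg', hΦ⟩ := hnp Lg hLg
  refine ⟨fun x => ins n N L W P (Φ x) (hΦ x).1, ?_, ?_, ?_, ?_⟩
  · -- the machine
    have h3 : PT ∅ (fun G : PG ℕ ℕ (Fin r) (Fin r) =>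
        Raw.mk (word (H111.nums (consL n N L W P G)))) :=
      H111.PT_word (H111.PT_nums (PT_consL PT.id))
    obtain ⟨F, hF, hF'⟩ := h3
    refine tm2_of_polyTimeFun _ _ _ (fun x => F (g x)) (polyTimeFun_iff.2 (hF.comp hg))
      fun x => ?_
    rw [hg', ins_code]
    exact hF' _
  · -- the size
    obtain ⟨T, hT, -, hgT⟩ := hg.length_le
    obtain ⟨c, hc⟩ := hT
    have hlen : ∀ x, (Φ x).length ≤ pb c x.length := fun x => by
      have h3 := length_le_esize (Φ x)
      have h4 := hgT x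
      rw [hg'] at h4
      exact h3.trans (h4.trans (hc _))
    set k := Fintype.card (Win n N) with hk
    refine ⟨3 * ((2 ^ c) ^ k * (k * (Fintype.card (Fin n → Fin L) *
      Fintype.card (Sd n N r L))) * MM n N r W P), c * k, fun x => ?_⟩
    rw [ins_size, ZZ, Fintype.card_fun, Fintype.card_fin, ← hk]
    have h3 : (Φ x).length ^ k ≤ (2 ^ c) ^ k * (x.length + 1) ^ (c * k) := by
      rw [pow_mul, ← mul_pow, ← mul_pow]
      exact Nat.pow_le_pow_left ((hlen x).trans (Nat.pow_le_pow_left (by omega) c)) k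
    calc 3 * ((Φ x).length ^ k * (k * (Fintype.card (Fin n → Fin L) *
          Fintype.card (Sd n N r L))) * MM n N r W P)
        ≤ 3 * ((2 ^ c) ^ k * (x.length + 1) ^ (c * k) * (k * (Fintype.card (Fin n → Fin L) *
          Fintype.card (Sd n N r L))) * MM n N r W P) := by gcongr
      _ = _ := by ring
  · -- completeness
    intro x hx
    obtain ⟨A, hA, hcost⟩ := hCo n N r L W (Φ x) (hΦ x).1 ((hΦ x).2.1 hx)
    refine le_trans ?_ (ins_ge hC (Φ x) (hΦ x).1 A hA)
    rw [hcost]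
    have h3 : nu n L / MM n N r W P ≤ ε := by
      rw [div_le_iff₀ hMp]
      linarith
    linarith
  · -- soundness
    intro x hx
    refine (ins_le hC (Φ x) (hΦ x).1 ((C1 + 1) * ν) fun A hA =>
      (hs (Φ x) (hΦ x).1 ((hΦ x).2.2 hx) A hA).le).trans ?_
    have h3 : C * ε ≤ (C1 + 1) * ν / MM n N r W P := by
      rw [le_div_iff₀ hMp]
      have h4 : C ≤ C1 := le_max_left _ _
      have h5 : C * ε * MM n N r W P ≤ C1 * (MM n N r W P * ε) := by
        have h6 : C * (ε * MM n N r W P) ≤ C1 * (ε * MM n N r W P) :=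
          mul_le_mul_of_nonneg_right h4 (by positivity)
        linarith
      have h7 : C1 * (MM n N r W P * ε) ≤ C1 * (ν + ε) :=
        mul_le_mul_of_nonneg_left hM3 hC10.le
      nlinarith
    linarith

/-- Package R. -/
theorem redThm : RedThm := redThm_of countThm

end Vale.Agent.P325.H811
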