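import Vale.Agent.P325.H811.K2.Val
import Vale.Agent.P342.H472.Gam

/-!
# The list of constraints is computed in polynomial time
-/

namespace Vale.Agent.P325.H811

open Finset Vale.Agent.Lib.PCP Vale.Agent.Lib.PolyTime Vale.Agent.P342 Vale.Agent.P325.K2

variable {n N r L W P : ℕ}

/-- Tuples of the elements of a list given by a map. -/
theorem tupF_map {ι α : Type} (h : ι → α) (k : ℕ) (l : List ι) :
    H111.tupF k (l.map h) = (H111.tupF k l).map fun u => fun i => h (u i) := by
  induction k with
  | zero =>
    simp only [H111.tupF, List.map_cons, List.map_nil]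
    congr 1
    funext i
    exact i.elim0
  | succ k ih =>
    simp only [H111.tupF, List.flatMap_map, List.map_flatMap, ih, List.map_map]
    refine List.flatMap_congr fun e _ => ?_
    refine List.map_congr_left fun t _ => ?_
    simp only [Function.comp]
    funext i
    refine Fin.cases ?_ (fun j => ?_) i
    · simp
    · simp

section

variable [NeZero n] [NeZero L] [NeZero r]

/-- The constraint of a test, with the list of values of the permutation. -/
noncomputable def conL (s : Test n N r L W P) (e : Win n N → Ed r) :
    Vt n N r × Vt n N r × List ℕ :=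
  ((con s e).1, (con s e).2.1, H111.permL (con s e).2.2)

/-- The list program. -/
noncomputable def consL (n N L W P : ℕ) [NeZero n] [NeZero L] (G : PG ℕ ℕ (Fin r) (Fin r)) :
    List (Vt n N r × Vt n N r × List ℕ) :=
  (univ : Finset (Test n N r L W P)).toList.flatMap fun s =>
    (H111.tupF (Fintype.card (Win n N)) G).map fun t => conL s fun b => t (wn n N b)

theorem consL_eq (G : PG ℕ ℕ (Fin r) (Fin r)) :
    consL n N L W P G = (cons (n := n) (N := N) (L := L) W P G).map
      fun c => (c.1, c.2.1, H111.permL c.2.2) := by
  have hG : G = (List.finRange G.length).map G.get := by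
    apply List.ext_getElem <;> simp
  unfold consL cons
  rw [List.map_flatMap]
  refine List.flatMap_congr fun s _ => ?_
  conv_lhs => rw [hG]
  rw [tupF_map, List.map_map, List.map_map]
  rfl

variable {A : Set Word} {γ : Type} [Enc γ]

theorem PT_tupF {α : Type} [Enc α] {G : γ → List α} (hG : PT A G) (l : ℕ) :
    PT A (fun a => H111.tupF l (G a)) := by
  induction l with
  | zero => exact PT.const _
  | succ l ih =>
    unfold H111.tupF
    refine PT.flatMap (f := fun (a : γ) (e : α) => (H111.tupF l (G a)).map fun t =>
      (Fin.cons e t : Fin (l + 1) → α)) hG ?_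
    refine PT.map (l := fun p : γ × α => H111.tupF l (G p.1))
      (f := fun (p : γ × α) (t : Fin l → α) => (Fin.cons p.2 t : Fin (l + 1) → α))
      (ih.comp PT.fst') ?_
    exact Vale.Agent.P342.Red.PT_cons PT.fst'.snd PT.snd'

theorem PT_prj {e : γ → Win n N → Ed r} (he : PT A e) : PT A (fun a => prj (e a)) :=
  PT.funMk fun b => (PT.funAt he b).snd.snd

theorem PT_qst {e : γ → Win n N → Ed r} (he : PT A e) (c : Win n N) :
    PT A (fun a => qst c (e a)) := by
  refine PT.funMk fun b => ?_
  have hb : PT A (fun a => e a b) := PT.funAt he b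
  unfold qst
  by_cases h1 : b = c
  · simp only [h1, if_true]
    rw [h1] at hb
    exact hb.fst.pair ((PT.const 0).pair (PT.const id))
  · by_cases h2 : Dj b c
    · simp only [h1, h2, if_true, if_false]
      exact (PT.const 0).pair (hb.snd.fst.pair (PT.const id))
    · simp only [h1, h2, if_false]
      exact hb

theorem PT_conL (s : Test n N r L W P) {e : γ → Win n N → Ed r} (he : PT A e) :
    PT A (fun a => conL s (e a)) := by
  have hp := PT_prj he
  have h1 : PT A (fun a => fold (tab1 s (prj (e a)))) :=
    PT.finComp (fun π => fold (tab1 s π)) hp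
  have h2 : PT A (fun a => fold (tab2 s (prj (e a)))) :=
    PT.finComp (fun π => fold (tab2 s π)) hp
  have h3 : PT A (fun a => H111.permL
      (if tab1 s (prj (e a)) lab0 = tab2 s (prj (e a)) lab0 then (1 : Equiv.Perm (Fin 2))
        else Equiv.swap 0 1)) :=
    PT.finComp (fun π => H111.permL
      (if tab1 s π lab0 = tab2 s π lab0 then (1 : Equiv.Perm (Fin 2)) else Equiv.swap 0 1)) hp
  exact ((PT.const s.1.1).pair ((PT_qst he s.1.1).pair h1)).pair
    (((PT.const (win2 s)).pair ((PT_qst he (win2 s)).pair h2)).pair h3)

theorem PT_consL {G : γ → PG ℕ ℕ (Fin r) (Fin r)} (hG : PT A G) :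
    PT A (fun a => consL n N L W P (G a)) := by
  unfold consL
  refine PT.flatMapConst _ fun s _ => ?_
  refine PT.map (f := fun (_ : γ) (t : Fin (Fintype.card (Win n N)) → Ed r) =>
    conL s fun b => t (wn n N b)) (PT_tupF hG _) ?_
  exact PT_conL s (PT.funMk fun b => PT.funAt PT.snd' (wn n N b))

theorem ins_code [NeZero N] (G : PG ℕ ℕ (Fin r) (Fin r)) (hG : G ≠ []) :
    (ins n N L W P G hG).code = word (H111.nums (consL n N L W P G)) := by
  rw [ins, H111.mkInst_code, consL_eq]

theorem ins_size [NeZero N] (G : PG ℕ ℕ (Fin r) (Fin r)) (hG : G ≠ []) :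
    (ins n N L W P G hG).size = 3 * (ZZ n N r L G.length * MM n N r W P) := by
  rw [ins, H111.mkInst_size, length_cons]

end

end Vale.Agent.P325.H811
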