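import Vale.Agent.P325.H111.K2.Stmts
import Vale.Agent.P325.H111.Inst
import Vale.Agent.P325.H111.Copies

/-!
# The tests, the vertices and the list of constraints of the reduction
-/

namespace Vale.Agent.P325.H811

open Finset Vale.Agent.Lib.PCP Vale.Agent.P342 Vale.Agent.P325.K2

variable {n N r L W P : ℕ}

/-- The vertices: a window, a question, a table. -/
abbrev Vt (n N r : ℕ) : Type := Win n N × (Win n N → Ed r) × (Lab n N r → Bool)

/-- The label tuple used for the folding. -/
def lab0 [NeZero r] : Lab n N r := fun _ => 0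

/-- The representative of a table. -/
def fold [NeZero r] (φ : Lab n N r → Bool) : Lab n N r → Bool :=
  if φ lab0 then φ else fun ν => !φ ν

/-- The tests: a window, a weight, a seed and one of the comparisons. -/
abbrev Test (n N r L W P : ℕ) : Type :=
  (Win n N × (Fin n → Fin L) × Sd n N r L) × (Lab n N r ⊕ (Fin n × Fin N × Fin W) ⊕ Fin P)

section

variable [NeZero n] [NeZero L]

/-- The window of the second table. -/
noncomputable def win2 (s : Test n N r L W P) : Win n N :=
  match s.2 with
  | .inl _ => s.1.1
  | .inr (.inl q) =>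
    if s.1.2.1 q.1 = 0 ∧ s.1.2.1 ≠ 0 then Function.update s.1.1 q.1 q.2.1 else s.1.1
  | .inr (.inr _) => s.1.1

/-- The first table. -/
noncomputable def tab1 (s : Test n N r L W P) (π : Win n N → Fin r → Fin r) :
    Lab n N r → Bool := tbl s.1.2.1 s.1.2.2 (adr π s.1.1)

open Classical in
/-- The second table. -/
noncomputable def tab2 (s : Test n N r L W P) (π : Win n N → Fin r → Fin r) :
    Lab n N r → Bool :=
  match s.2 with
  | .inl ν => if near s.1.2.1 s.1.2.2 (adr π s.1.1 ν) then flipAt (tab1 s π) ν else tab1 s π
  | .inr (.inl _) => tbl s.1.2.1 s.1.2.2 (adr π (win2 s))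
  | .inr (.inr _) => tab1 s π

/-- The assignment violates the test. -/
def Viol (A : Asg n N r) (s : Test n N r L W P) (e : Win n N → Ed r) : Prop :=
  A s.1.1 (qst s.1.1 e) (tab1 s (prj e)) ≠ A (win2 s) (qst (win2 s) e) (tab2 s (prj e))

/-- The constraint of a test. -/
noncomputable def con [NeZero r] (s : Test n N r L W P) (e : Win n N → Ed r) :
    Vt n N r × Vt n N r × Equiv.Perm (Fin 2) :=
  ((s.1.1, qst s.1.1 e, fold (tab1 s (prj e))), (win2 s, qst (win2 s) e, fold (tab2 s (prj e))),
    if tab1 s (prj e) lab0 = tab2 s (prj e) lab0 then 1 else Equiv.swap 0 1)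

end

/-- The numbering of the blocks. -/
noncomputable def wn (n N : ℕ) : Win n N ≃ Fin (Fintype.card (Win n N)) := Fintype.equivFin _

/-- The list of all constraints. -/
noncomputable def cons [NeZero n] [NeZero L] [NeZero r] (W P : ℕ) (G : PG ℕ ℕ (Fin r) (Fin r)) :
    List (Vt n N r × Vt n N r × Equiv.Perm (Fin 2)) :=
  (univ : Finset (Test n N r L W P)).toList.flatMap fun s =>
    (Vale.Agent.P325.H111.tupF (Fintype.card (Win n N)) (List.finRange G.length)).map fun t =>
      con s (eo G fun b => t (wn n N b))

/-- The number of choices of the tuple of constraints, the window, the weight and the seed. -/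
noncomputable def ZZ (n N r L m : ℕ) : ℕ :=
  Fintype.card (Win n N → Fin m) * (Fintype.card (Win n N) * (Fintype.card (Fin n → Fin L) *
    Fintype.card (Sd n N r L)))

/-- The number of comparisons. -/
def MM (n N r W P : ℕ) : ℕ := Fintype.card (Lab n N r) + (n * (N * W) + P)

/-- The assignment of a labelling of the vertices. -/
def asgOf [NeZero r] (g : Vt n N r → Fin 2) : Asg n N r := fun c q φ =>
  if φ lab0 then decide (g (c, q, φ) = 1) else !decide (g (c, q, fun ν => !φ ν) = 1)

/-- The counting statement (helper183). -/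
def CountThm : Prop :=
  ∀ (n N r L W P : ℕ) [NeZero n] [NeZero N] [NeZero r] [NeZero L]
    (G : PG ℕ ℕ (Fin r) (Fin r)), G ≠ [] → ∀ A : Asg n N r,
    (∑ p : Win n N → Fin G.length, ∑ s : Test n N r L W P,
      (open Classical in if Viol A s (eo G p) then (1 : ℝ) else 0)) =
      cost L W G A * ZZ n N r L G.length

end Vale.Agent.P325.H811
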