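import Vale.Agent.P325.H811.K2.Red0

/-!
# The value of the instance
-/

namespace Vale.Agent.P325.H811

open Finset Vale.Agent.Lib.PCP Vale.Agent.P342 Vale.Agent.P325.K2

variable {n N r L W P : ℕ}

/-- Equality of vertices is decidable. -/
instance vtDec : DecidableEq (Vt n N r) :=
  @instDecidableEqProd _ _ (inferInstance : DecidableEq (Win n N))
    (@instDecidableEqProd _ _ (inferInstance : DecidableEq (Win n N → Ed r))
      (inferInstance : DecidableEq (Lab n N r → Bool)))

/-- Sums over tuples indexed by the blocks. -/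
theorem sum_win {m : ℕ} (h : (Win n N → Fin m) → ℕ) :
    ((H111.tupF (Fintype.card (Win n N)) (List.finRange m)).map fun t =>
      h fun b => t (wn n N b)).sum = ∑ p : Win n N → Fin m, h p := by
  rw [H111.sum_tupF _ fun t => h fun b => t (wn n N b)]
  exact Fintype.sum_equiv (Equiv.arrowCongr (wn n N).symm (Equiv.refl (Fin m)))
    (fun t => h fun b => t (wn n N b)) h fun t => rfl

section

variable [NeZero n] [NeZero L] [NeZero r]

theorem sum_cons (G : PG ℕ ℕ (Fin r) (Fin r))
    (h : Vt n N r × Vt n N r × Equiv.Perm (Fin 2) → ℕ) :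
    ((cons (L := L) W P G).map h).sum =
      ∑ s : Test n N r L W P, ∑ p : Win n N → Fin G.length, h (con s (eo G p)) := by
  rw [cons, List.map_flatMap, H111.sum_flatMap, ← Finset.sum_map_toList]
  congr 1
  refine List.map_congr_left fun s _ => ?_
  rw [List.map_map, ← sum_win fun p => h (con s (eo G p))]
  rfl

theorem length_cons (G : PG ℕ ℕ (Fin r) (Fin r)) :
    (cons (n := n) (N := N) (L := L) W P G).length = ZZ n N r L G.length * MM n N r W P := by
  have h1 := sum_cons (n := n) (N := N) (L := L) (W := W) (P := P) G fun _ => 1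
  simp only [List.map_const', List.sum_replicate, smul_eq_mul, mul_one, sum_const,
    Finset.card_univ] at h1
  rw [h1, ZZ, MM, Fintype.card_prod, Fintype.card_prod, Fintype.card_prod, Fintype.card_sum,
    Fintype.card_sum, Fintype.card_prod, Fintype.card_prod, Fintype.card_fin, Fintype.card_fin,
    Fintype.card_fin, Fintype.card_fin]
  ring

theorem perm_aux (x y : Fin 2) (b c : Bool) :
    y = (if b = c then (1 : Equiv.Perm (Fin 2)) else Equiv.swap 0 1) x ↔
      (if b then decide (x = 1) else !decide (x = 1)) =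
        if c then decide (y = 1) else !decide (y = 1) := by
  revert x y b c
  decide

theorem asgOf_eq (g : Vt n N r → Fin 2) (c : Win n N) (q : Win n N → Ed r)
    (φ : Lab n N r → Bool) : asgOf g c q φ =
      if φ lab0 then decide (g (c, q, fold φ) = 1) else !decide (g (c, q, fold φ) = 1) := by
  unfold asgOf fold
  by_cases h : φ lab0 = true
  · simp [h]
  · simp [h]

theorem sat_iff (g : Vt n N r → Fin 2) (s : Test n N r L W P) (e : Win n N → Ed r) :
    g (con s e).2.1 = (con s e).2.2 (g (con s e).1) ↔ ¬ Viol (asgOf g) s e := by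
  unfold con Viol
  dsimp only
  rw [perm_aux, not_not, asgOf_eq, asgOf_eq]

theorem asgOf_odd (g : Vt n N r → Fin 2) : Odd' (asgOf g) := by
  intro c q φ
  unfold asgOf
  by_cases h : φ lab0 = true
  · simp [h]
  · simp [h]

/-- The labelling of an assignment. -/
def labOf (A : Asg n N r) : Vt n N r → Fin 2 := fun v => if A v.1 v.2.1 v.2.2 then 1 else 0

theorem asgOf_labOf {A : Asg n N r} (hA : Odd' A) : asgOf (labOf A) = A := by
  funext c q φ
  unfold asgOf labOf
  have h1 := hA c q φ
  by_cases h : φ lab0 = true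
  · cases h2 : A c q φ <;> simp [h]
  · simp only [h, h1]
    cases h2 : A c q φ <;> simp

open Classical in
/-- The number of satisfied constraints. -/
theorem count_sat (hC : CountThm) [NeZero N] (G : PG ℕ ℕ (Fin r) (Fin r)) (hG : G ≠ [])
    (g : Vt n N r → Fin 2) :
    (((cons (L := L) W P G).countP fun c => decide (g c.2.1 = c.2.2 (g c.1)) : ℕ) : ℝ) =
      ZZ n N r L G.length * MM n N r W P -
        cost L W G (asgOf g) * ZZ n N r L G.length := by
  rw [H111.countP_eq_sum, sum_cons, eq_sub_iff_add_eq, ← hC n N r L W P G hG (asgOf g)]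
  have h1 : ∀ (s : Test n N r L W P) (p : Win n N → Fin G.length),
      (if decide (g (con s (eo G p)).2.1 = (con s (eo G p)).2.2 (g (con s (eo G p)).1)) = true
        then 1 else 0 : ℕ) = if Viol (asgOf g) s (eo G p) then 0 else 1 := by
    intro s p
    have h2 := sat_iff g s (eo G p)
    by_cases h : Viol (asgOf g) s (eo G p)
    · rw [if_pos h, if_neg (by rw [decide_eq_true_eq, h2]; exact fun h' => h' h)]
    · rw [if_neg h, if_pos (by rw [decide_eq_true_eq, h2]; exact h)]
  simp only [h1]
  rw [Finset.sum_comm]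
  push_cast
  rw [← Finset.sum_add_distrib]
  have h3 : ∀ p : Win n N → Fin G.length,
      (∑ s : Test n N r L W P, (if Viol (asgOf g) s (eo G p) then (0 : ℝ) else 1)) +
        ∑ s : Test n N r L W P, (if Viol (asgOf g) s (eo G p) then (1 : ℝ) else 0) =
      Fintype.card (Test n N r L W P) := by
    intro p
    rw [← Finset.sum_add_distrib]
    have h4 : ∀ s : Test n N r L W P, (if Viol (asgOf g) s (eo G p) then (0 : ℝ) else 1) +
        (if Viol (asgOf g) s (eo G p) then (1 : ℝ) else 0) = 1 := by
      intro s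
      by_cases h : Viol (asgOf g) s (eo G p) <;> simp [h]
    simp only [h4, sum_const, Finset.card_univ, nsmul_eq_mul, mul_one]
  simp only [h3, sum_const, Finset.card_univ, nsmul_eq_mul]
  have h5 := length_cons (n := n) (N := N) (L := L) (W := W) (P := P) G
  have h6 := sum_cons (n := n) (N := N) (L := L) (W := W) (P := P) G fun _ => 1
  simp only [List.map_const', List.sum_replicate, smul_eq_mul, mul_one, sum_const,
    Finset.card_univ] at h6
  rw [h5] at h6
  have h7 : ((ZZ n N r L G.length * MM n N r W P : ℕ) : ℝ) =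
      ((Fintype.card (Test n N r L W P) * Fintype.card (Win n N → Fin G.length) : ℕ) : ℝ) := by
    rw [h6]
  push_cast at h7 ⊢
  linarith

theorem ZZ_pos [NeZero N] {m : ℕ} (hm : 0 < m) : 0 < ZZ n N r L m := by
  have : Nonempty (Fin m) := ⟨⟨0, hm⟩⟩
  unfold ZZ
  refine Nat.mul_pos Fintype.card_pos (Nat.mul_pos Fintype.card_pos (Nat.mul_pos Fintype.card_pos
    Fintype.card_pos))

theorem MM_pos : 0 < MM n N r W P := by
  unfold MM
  have : 0 < Fintype.card (Lab n N r) := Fintype.card_pos
  omega

theorem cons_ne [NeZero N] (G : PG ℕ ℕ (Fin r) (Fin r)) (hG : G ≠ []) :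
    cons (n := n) (N := N) (L := L) W P G ≠ [] := by
  rw [← List.length_pos_iff, length_cons]
  exact Nat.mul_pos (ZZ_pos (List.length_pos_iff.2 hG)) MM_pos

/-- The instance. -/
noncomputable def ins (n N L W P : ℕ) [NeZero n] [NeZero L] [NeZero N]
    (G : PG ℕ ℕ (Fin r) (Fin r)) (hG : G ≠ []) : Vale.Agent.P325.Inst 2 :=
  H111.mkInst (cons (n := n) (N := N) (L := L) W P G) (cons_ne G hG)

theorem ins_ge (hC : CountThm) [NeZero N] {W P : ℕ} (G : PG ℕ ℕ (Fin r) (Fin r)) (hG : G ≠ [])
    (A : Asg n N r) (hA : Odd' A) :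
    1 - cost L W G A / MM n N r W P ≤ (ins n N L W P G hG).val := by
  have h1 := H111.mkInst_val_ge (cons (n := n) (N := N) (L := L) W P G) (cons_ne G hG) (labOf A)
  refine le_trans (le_of_eq ?_) h1
  rw [count_sat hC G hG, length_cons, asgOf_labOf hA]
  have h2 : (0 : ℝ) < ZZ n N r L G.length := by
    exact_mod_cast ZZ_pos (List.length_pos_iff.2 hG)
  have h3 : (0 : ℝ) < MM n N r W P := by
    exact_mod_cast MM_pos
  push_cast
  field_simp

theorem ins_le (hC : CountThm) [NeZero N] {W P : ℕ} (G : PG ℕ ℕ (Fin r) (Fin r)) (hG : G ≠ []) (κ : ℝ)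
    (hκ : ∀ A : Asg n N r, Odd' A → κ ≤ cost L W G A) :
    (ins n N L W P G hG).val ≤ 1 - κ / MM n N r W P := by
  refine H111.mkInst_val_le _ _ _ fun g => ?_
  rw [count_sat hC G hG, length_cons]
  have h2 : (0 : ℝ) < ZZ n N r L G.length := by
    exact_mod_cast ZZ_pos (List.length_pos_iff.2 hG)
  have h3 : (0 : ℝ) < MM n N r W P := by
    exact_mod_cast MM_pos
  have h4 := mul_le_mul_of_nonneg_right (hκ (asgOf g) (asgOf_odd g)) h2.le
  push_cast
  have h5 : (1 - κ / (MM n N r W P : ℝ)) * (ZZ n N r L G.length * MM n N r W P) =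
      ZZ n N r L G.length * MM n N r W P - κ * ZZ n N r L G.length := by
    field_simp
  rw [h5]
  linarith

end

end Vale.Agent.P325.H811
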